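import Vale.Agent.Lib.P090.Cut

/-!
# P090: bounded approximation property of Lipschitz-free spaces, relatively separated case

Let `(M, o)` be a pointed metric space.

* If `c > 0` and every finite subset of `M` lies in a finite set `S` with
  `c * dist x o ≤ dist x y` for all `x ∈ S`, `y ∉ S`, then the Lipschitz-free space of `M` has
  the `max 1 (1 / c)`-bounded approximation property.
* In particular, if `M` is uniformly discrete (distinct points are at distance at least `θ > 0`)
  and bounded (all distances are at most `R`), then the Lipschitz-free space of `M` has the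
  `max 1 (R / θ)`-bounded approximation property.
-/

namespace Vale.Agent.Results.P090.SeparatedExhaustions

open Vale.Agent.Lib.P090

theorem result (M : Type*) [MetricSpace M] (o : M) :
    (∀ c : ℝ, 0 < c →
      (∀ F : Set M, F.Finite → ∃ S : Set M, S.Finite ∧ F ⊆ S ∧
        ∀ x ∈ S, ∀ y ∉ S, c * dist x o ≤ dist x y) →
      HasLamBAP (max 1 (1 / c)) (LipFree M o)) ∧
    (∀ θ R : ℝ, 0 < θ → (∀ x y : M, x ≠ y → θ ≤ dist x y) → (∀ x y : M, dist x y ≤ R) →
      HasLamBAP (max 1 (R / θ)) (LipFree M o)) :=
  ⟨fun _ hc hex => hasLamBAP_of_exhaustion M o hc hex,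
    fun _ _ hθ hdisc hbdd => hasLamBAP_of_bounded_uniformlyDiscrete M o hθ hdisc hbdd⟩

end Vale.Agent.Results.P090.SeparatedExhaustions
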