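import Vale.Agent.Lib.P090.Retract

/-!
# P090: bounded approximation property of Lipschitz-free spaces, ultrametric-like spaces

Let `(M, o)` be a pointed metric space.

* If `K ≥ 0` and every finite subset of `M` is fixed pointwise by some `K`-Lipschitz self-map of
  `M` with finite range that fixes `o`, then the Lipschitz-free space of `M` has the `K`-bounded
  approximation property.
* If `ρ` is an ultrametric on `M` with `ρ ≤ dist ≤ D * ρ`, `D ≥ 1`, then the Lipschitz-free
  space of `M` has the `D`-bounded approximation property.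
* If the metric of `M` is an ultrametric, then the Lipschitz-free space of `M` has the metric
  approximation property, that is, the `1`-bounded approximation property.
-/

namespace Vale.Agent.Results.P090.UltrametricDistortion

open Vale.Agent.Lib.P090

theorem result (M : Type*) [MetricSpace M] (o : M) :
    (∀ K : ℝ, 0 ≤ K →
      (∀ F : Set M, F.Finite → ∃ r : M → M, (Set.range r).Finite ∧ r o = o ∧
        (∀ x ∈ F, r x = x) ∧ ∀ x y, dist (r x) (r y) ≤ K * dist x y) →
      HasLamBAP K (LipFree M o)) ∧
    (∀ (ρ : M → M → ℝ) (D : ℝ), 1 ≤ D → (∀ x, ρ x x = 0) → (∀ x y, ρ x y = ρ y x) →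
      (∀ x y z, ρ x z ≤ max (ρ x y) (ρ y z)) → (∀ x y, ρ x y ≤ dist x y) →
      (∀ x y, dist x y ≤ D * ρ x y) → HasLamBAP D (LipFree M o)) ∧
    ((∀ x y z : M, dist x z ≤ max (dist x y) (dist y z)) → HasLamBAP 1 (LipFree M o)) :=
  ⟨fun _ hK hex => hasLamBAP_of_lipschitz_maps M o hK hex,
    fun ρ _ hD h0 hsymm hult hle hge =>
      hasLamBAP_of_ultrametric_distortion M o ρ hD h0 hsymm hult hle hge,
    fun hult => hasLamBAP_one_of_ultrametric M o hult⟩

end Vale.Agent.Results.P090.UltrametricDistortion
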